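import Vale.Agent.P272.K.Asm.Phase1Final
import Vale.Agent.P272.K.N.Final
import Vale.Agent.P272.K.C3.Calabi
import Vale.Agent.P272.K.LIN.LTFinal

/-! The Aubin-Yau theorem and the main statement, unconditionally. -/

open scoped Manifold ContDiff ComplexOrder Topology

set_option linter.all false

noncomputable section

namespace Vale.Agent.P272.K

/-- **Aubin-Yau** -/
theorem aubinYau (n : ℕ) (X : Type) [TopologicalSpace X] [T2Space X] [CompactSpace X]
    [ChartedSpace (Cm n) X] [IsManifold 𝓘(ℂ, Cm n) ω X] : AubinYau n X :=
  N.aubinYau_of n X C3.calabi (LIN.ltx (by norm_num) (by norm_num))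

theorem main : MainStatement :=
  main_of_aubinYau fun n X _ _ _ _ _ _ _ => aubinYau n X

end Vale.Agent.P272.K
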