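import Vale.Agent.P272.K.Asm.Weak
import Mathlib.Analysis.Matrix.Order

/-! Phase 1: `TwistedKE` implies `(K_X + a[w])^n > 0`. -/

open scoped Manifold ContDiff ComplexOrder Topology
open Complex Set Filter MeasureTheory

set_option linter.all false

noncomputable section

namespace Vale.Agent.P272.K

open INT (IsDensity intX part Part)

variable {n : ℕ}

open scoped MatrixOrder in
lemma trace_mul_nonneg_re {A B : Matrix (Fin n) (Fin n) ℂ} (hA : A.PosSemidef) (hB : B.PosSemidef) :
    0 ≤ (A * B).trace.re := by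
  obtain ⟨C, rfl⟩ := CStarAlgebra.nonneg_iff_eq_star_mul_self.mp hA.nonneg
  rw [Matrix.star_eq_conjTranspose, Matrix.mul_assoc, Matrix.trace_mul_comm]
  have h1 : (C * B * C.conjTranspose).PosSemidef := hB.mul_mul_conjTranspose_same C
  exact (Complex.le_def.1 h1.trace_nonneg).1

lemma isKahler_twist {X : Type*} [TopologicalSpace X] [ChartedSpace (Cm n) X]
    [IsManifold 𝓘(ℂ, Cm n) ω X]
    {w : Chart n X → Cm n → Matrix (Fin n) (Fin n) ℂ} {φ : Chart n X → Cm n → ℝ}
    (hφ : IsCanonicalMetric φ) (hw : IsKahler w) (t : ℝ)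
    (hpos : ∀ e x, At e x → (cHess (φ e) (e x) + (t : ℂ) • w e (e x)).PosDef) :
    IsKahler fun e z => cHess (φ e) z + (t : ℂ) • w e z where
  smooth e x hx i j := by
    have h1 : ContDiffAt ℝ ∞ (fun z => cHess (φ e) z i j) (e x) :=
      contDiffAt_cHess (hφ.smooth e x hx) (le_of_eq rfl) i j
    exact h1.add (contDiffAt_const.mul (hw.smooth e x hx i j))
  posDef := hpos
  change := IsForm.add (isForm_canonical
    (fun e x hx => (hφ.smooth e x hx).of_le (by exact WithTop.coe_le_coe.2 le_top)) hφ.change)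
    (IsForm.smul (t : ℂ) hw.toIsHermitian.isForm)
  closed e x hx i j k := by
    have h1 : ∀ a b, DifferentiableAt ℝ (fun z => cHess (φ e) z a b) (e x) := fun a b =>
      (contDiffAt_cHess (m := ∞) (hφ.smooth e x hx) (le_of_eq rfl) a b).differentiableAt (by simp)
    have h2 : ∀ a b, DifferentiableAt ℝ (fun z => w e z a b) (e x) := fun a b =>
      (hw.smooth e x hx a b).differentiableAt (by simp)
    show dz k (fun z => cHess (φ e) z i j + (t : ℂ) * w e z i j) (e x) =
      dz i (fun z => cHess (φ e) z k j + (t : ℂ) * w e z k j) (e x)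
    rw [dz_add (h1 i j) ((h2 i j).const_mul _), dz_add (h1 k j) ((h2 k j).const_mul _),
      dz_const_mul _ (h2 i j), dz_const_mul _ (h2 k j), cHess_closed (hφ.smooth e x hx),
      hw.closed e x hx i j k]

/-- the L¹ bound of `tr_g w` -/
theorem trace_bound {X : Type*} [TopologicalSpace X] [ChartedSpace (Cm n) X]
    [IsManifold 𝓘(ℂ, Cm n) ω X] [T2Space X] [CompactSpace X] (hWF : WeakForm n)
    {w h : Chart n X → Cm n → Matrix (Fin n) (Fin n) ℂ} (hw : IsHermitian w) (hh : IsHermitian h)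
    (hneg : NegHSC h) :
    ∃ C : ℝ, ∀ g : Chart n X → Cm n → Matrix (Fin n) (Fin n) ℂ, IsKahler g →
      (∀ e x, At e x → (-cHess (fun z => Real.log (g e z).det.re) (e x) + g e (e x)).PosSemidef) →
      intX (fun e z => ((g e z)⁻¹ * w e z).trace.re * (g e z).det.re) ≤
        C * intX (fun e z => (g e z).det.re) := by
  obtain ⟨k, hk, hHSC⟩ := exists_HSC_bound hh hneg (part n X).e (part n X).mem
    (fun i => (part n X).e i '' tsupport ((part n X).ρ i))
    (fun i => isCompact_image_tsupport ((part n X).supp i))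
    (fun i => image_tsupport_subset ((part n X).supp i))
  obtain ⟨C, hC, hCw⟩ := exists_comparison hh hw
  refine ⟨C * (2 / k), fun g hg hric => ?_⟩
  have hgH := hg.toIsHermitian
  have h1 := intX_ineq hWF hg hh hric hk.le hHSC
  have hdet : ∀ e x, At e x → 0 < (g e (e x)).det.re := fun e x hx =>
    (Complex.lt_def.1 (hgH.posDef e x hx).det_pos).1
  have hd1 : IsDensity fun e z => (fun T : ℝ => T) (((g e z)⁻¹ * h e z).trace.re) * (g e z).det.re :=
    isDensity_trace hgH hh continuous_id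
  have hd2 : IsDensity fun e z => (fun T : ℝ => k * T ^ 2 - 2 * T)
      (((g e z)⁻¹ * h e z).trace.re) * (g e z).det.re :=
    isDensity_trace (F := fun T : ℝ => k * T ^ 2 - 2 * T) hgH hh (by fun_prop)
  have hd3 : IsDensity fun e z => (fun T : ℝ => 2 * T - 4 / k)
      (((g e z)⁻¹ * h e z).trace.re) * (g e z).det.re :=
    isDensity_trace (F := fun T : ℝ => 2 * T - 4 / k) hgH hh (by fun_prop)
  have hd0 : IsDensity fun e z => (g e z).det.re := by
    have := isDensity_trace (F := fun _ => (1 : ℝ)) hgH hh continuous_const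
    simpa using this
  have hd4 : IsDensity fun e z => (fun T : ℝ => T) (((g e z)⁻¹ * w e z).trace.re) * (g e z).det.re :=
    isDensity_trace hgH hw continuous_id
  have h2 : intX (fun e z => (2 * ((g e z)⁻¹ * h e z).trace.re - 4 / k) * (g e z).det.re) ≤ 0 := by
    refine (INT.intX_mono hd3 hd2 fun e x hx => ?_).trans h1
    refine mul_le_mul_of_nonneg_right ?_ (hdet e x hx).le
    set T := ((g e (e x))⁻¹ * h e (e x)).trace.re
    have h3 : k * T ^ 2 - 2 * T - (2 * T - 4 / k) = (k * T - 2) ^ 2 / k := by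
      field_simp; ring
    have h4 : 0 ≤ (k * T - 2) ^ 2 / k := by positivity
    linarith
  have h5 : intX (fun e z => (2 * ((g e z)⁻¹ * h e z).trace.re - 4 / k) * (g e z).det.re) =
      2 * intX (fun e z => ((g e z)⁻¹ * h e z).trace.re * (g e z).det.re) -
        (4 / k) * intX (fun e z => (g e z).det.re) := by
    rw [← INT.intX_const_mul, ← INT.intX_const_mul, ← INT.intX_sub (hd1.const_mul 2)
      (hd0.const_mul (4 / k))]
    congr 1; funext e z; ring
  have h6 : intX (fun e z => ((g e z)⁻¹ * h e z).trace.re * (g e z).det.re) ≤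
      (2 / k) * intX (fun e z => (g e z).det.re) := by
    have : 4 / k = 2 * (2 / k) := by ring
    rw [h5, this] at h2
    linarith
  have h7 : intX (fun e z => ((g e z)⁻¹ * w e z).trace.re * (g e z).det.re) ≤
      C * intX (fun e z => ((g e z)⁻¹ * h e z).trace.re * (g e z).det.re) := by
    rw [← INT.intX_const_mul]
    refine INT.intX_mono hd4 (hd1.const_mul C) fun e x hx => ?_
    have h8 : 0 ≤ ((g e (e x))⁻¹ * ((C : ℂ) • h e (e x) - w e (e x))).trace.re :=
      trace_mul_nonneg_re (hgH.posDef e x hx).inv.posSemidef (hCw e x hx)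
    rw [Matrix.mul_sub, Matrix.mul_smul, Matrix.trace_sub, Matrix.trace_smul, smul_eq_mul,
      Complex.sub_re, Complex.re_ofReal_mul] at h8
    have := mul_le_mul_of_nonneg_right (sub_nonneg.1 h8) (hdet e x hx).le
    linarith
  calc _ ≤ C * intX (fun e z => ((g e z)⁻¹ * h e z).trace.re * (g e z).det.re) := h7
    _ ≤ C * ((2 / k) * intX (fun e z => (g e z).det.re)) := mul_le_mul_of_nonneg_left h6 hC.le
    _ = _ := by ring

/-- output of the block INT -/
def PosOfIneq (n : ℕ) (X : Type) [TopologicalSpace X] [ChartedSpace (Cm n) X]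
    [IsManifold 𝓘(ℂ, Cm n) ω X] [T2Space X] [CompactSpace X] : Prop :=
  ∀ (w : Chart n X → Cm n → Matrix (Fin n) (Fin n) ℂ) (_ : IsKahler w) (a : ℝ)
    (φ : Chart n X → Cm n → ℝ) (_ : IsCanonicalMetric φ) (C : ℝ)
    (_ : ∀ t : ℝ, a < t → ∃ ψ : Chart n X → Cm n → ℝ, IsCanonicalMetric ψ ∧
      (∀ e x, At e x → (cHess (ψ e) (e x) + (t : ℂ) • w e (e x)).PosDef) ∧
      intX (fun e z => ((cHess (ψ e) z + (t : ℂ) • w e z)⁻¹ * w e z).trace.re *
        (cHess (ψ e) z + (t : ℂ) • w e z).det.re) ≤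
        C * intX (fun e z => (cHess (ψ e) z + (t : ℂ) • w e z).det.re)),
    ∃ I : ℝ, 0 < I ∧ IsIntegral (fun e z => (cHess (φ e) z + (a : ℂ) • w e z).det.re) I

theorem phase1 {X : Type} [TopologicalSpace X] [ChartedSpace (Cm n) X]
    [IsManifold 𝓘(ℂ, Cm n) ω X] [T2Space X] [CompactSpace X] (hWF : WeakForm n)
    (hPI : PosOfIneq n X)
    {w h : Chart n X → Cm n → Matrix (Fin n) (Fin n) ℂ} (hw : IsKahler w) (hh : IsHermitian h)
    (hneg : NegHSC h) {a : ℝ} (hke : TwistedKE w a) {φ : Chart n X → Cm n → ℝ}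
    (hφ : IsCanonicalMetric φ) :
    ∃ I : ℝ, 0 < I ∧ IsIntegral (fun e z => (cHess (φ e) z + (a : ℂ) • w e z).det.re) I := by
  obtain ⟨C, hC⟩ := trace_bound hWF hw.toIsHermitian hh hneg
  refine hPI w hw a φ hφ C fun t ht => ?_
  obtain ⟨ψ, hψ, hpos, hric⟩ := hke (t - a) (sub_pos.2 ht)
  have hta : a + (t - a) = t := by ring
  simp only [hta] at hpos hric
  exact ⟨ψ, hψ, hpos, hC _ (isKahler_twist hψ hw t hpos) hric⟩

end Vale.Agent.P272.K
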