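import Vale.Agent.P272.K.Asm.Phase1

/-! `NefCanonical` and Aubin-Yau give `TwistedKE`. -/

open scoped Manifold ContDiff ComplexOrder Topology
open Complex Set Filter MeasureTheory

set_option linter.all false

noncomputable section

namespace Vale.Agent.P272.K

variable {n : ℕ}

lemma posDef_ofReal_smul {M : Matrix (Fin n) (Fin n) ℂ} (hM : M.PosDef) {c : ℝ} (hc : 0 < c) :
    ((c : ℂ) • M).PosDef := by
  have h1 : (c : ℂ) • M = c • M := by ext i j; simp
  rw [h1]; exact hM.smul hc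

lemma posSemidef_ofReal_smul {M : Matrix (Fin n) (Fin n) ℂ} (hM : M.PosSemidef) {c : ℝ}
    (hc : 0 ≤ c) : ((c : ℂ) • M).PosSemidef := by
  have h1 : (c : ℂ) • M = c • M := by ext i j; simp
  rw [h1]; exact hM.smul hc

section
variable {X : Type} [TopologicalSpace X] [ChartedSpace (Cm n) X] [IsManifold 𝓘(ℂ, Cm n) ω X]

/-- the function `φ - log det χ` on `X` -/
def ricPot (χ : Chart n X → Cm n → Matrix (Fin n) (Fin n) ℂ) (φ : Chart n X → Cm n → ℝ) (x : X) :
    ℝ :=
  φ (chartAt (Cm n) x) (chartAt (Cm n) x x) -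
    Real.log (χ (chartAt (Cm n) x) (chartAt (Cm n) x x)).det.re

lemma IsHermitian.det_re_pos {h : Chart n X → Cm n → Matrix (Fin n) (Fin n) ℂ}
    (hh : IsHermitian h) {e : Chart n X} {x : X} (hx : At e x) : 0 < (h e (e x)).det.re :=
  (Complex.lt_def.1 (hh.posDef e x hx).det_pos).1

lemma log_det_change {χ : Chart n X → Cm n → Matrix (Fin n) (Fin n) ℂ} (hχ : IsHermitian χ)
    {e e' : Chart n X} {x : X} (hx : At e x) (hx' : At e' x) :
    Real.log (χ e (e x)).det.re = Real.log (χ e' (e' x)).det.re +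
      Real.log (‖(jacM e e' x).det‖ ^ 2) := by
  rw [det_form_re hχ.isForm hx hx', Real.log_mul (pow_ne_zero 2 (norm_ne_zero_iff.2
    (jacM_det_ne_zero hx hx'))) (hχ.det_re_pos hx').ne']
  ring

lemma ricPot_eq {χ : Chart n X → Cm n → Matrix (Fin n) (Fin n) ℂ} (hχ : IsHermitian χ)
    {φ : Chart n X → Cm n → ℝ} (hφ : IsCanonicalMetric φ) {e : Chart n X} {x : X} (hx : At e x) :
    ricPot χ φ x = φ e (e x) - Real.log (χ e (e x)).det.re := by
  have hc : At (chartAt (Cm n) x) x := ⟨chart_mem_atlas _ x, mem_chart_source _ x⟩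
  unfold ricPot
  rw [hφ.change _ e x hc hx, log_det_change hχ hc hx]
  ring

lemma smoothFn_ricPot {χ : Chart n X → Cm n → Matrix (Fin n) (Fin n) ℂ} (hχ : IsHermitian χ)
    {φ : Chart n X → Cm n → ℝ} (hφ : IsCanonicalMetric φ) : SmoothFn (n := n) (ricPot χ φ) := by
  intro e x hx
  have h1 : (fun z => ricPot χ φ (e.symm z)) =ᶠ[𝓝 (e x)]
      fun z => φ e z - Real.log (χ e z).det.re := by
    filter_upwards [hx.nhds_target] with z hz
    rw [ricPot_eq hχ hφ (At.of_target hx.1 hz), e.right_inv hz]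
  refine ContDiffAt.congr_of_eventuallyEq ?_ h1
  exact (hφ.smooth e x hx).sub ((contDiffAt_re (contDiffAt_det (hχ.smooth e x hx))).log
    (hχ.det_re_pos hx).ne')

theorem twistedKE_of_nef (hAY : AubinYau n X) {w : Chart n X → Cm n → Matrix (Fin n) (Fin n) ℂ}
    (hw : IsKahler w) {a : ℝ} (ha : 0 ≤ a) (hnef : NefCanonical w a) : TwistedKE w a := by
  intro ε hε
  obtain ⟨φ0, hφ0, hpsd⟩ := hnef (ε / 2) (half_pos hε)
  have hpos : ∀ e x, At e x → (cHess (φ0 e) (e x) + ((a + ε : ℝ) : ℂ) • w e (e x)).PosDef := by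
    intro e x hx
    have h1 : cHess (φ0 e) (e x) + ((a + ε : ℝ) : ℂ) • w e (e x) =
        (cHess (φ0 e) (e x) + ((a + ε / 2 : ℝ) : ℂ) • w e (e x)) +
          ((ε / 2 : ℝ) : ℂ) • w e (e x) := by
      rw [add_assoc, ← add_smul]
      congr 2
      push_cast; ring
    rw [h1]
    exact Matrix.PosDef.posSemidef_add (hpsd e x hx)
      (posDef_ofReal_smul (hw.posDef e x hx) (half_pos hε))
  set χ : Chart n X → Cm n → Matrix (Fin n) (Fin n) ℂ :=
    fun e z => cHess (φ0 e) z + ((a + ε : ℝ) : ℂ) • w e z with hχdef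
  have hχ : IsKahler χ := isKahler_twist hφ0 hw (a + ε) hpos
  obtain ⟨u, hu, hupos, heq⟩ := hAY χ hχ (ricPot χ φ0) (smoothFn_ricPot hχ.toIsHermitian hφ0)
  have hsm : ∀ e x, At e x → ContDiffAt ℝ ∞ (fun z => φ0 e z + u (e.symm z)) (e x) :=
    fun e x hx => (hφ0.smooth e x hx).add (hu e x hx)
  have hcan : IsCanonicalMetric fun e z => φ0 e z + u (e.symm z) := by
    refine ⟨hsm, fun e e' x hx hx' => ?_⟩
    simp only [hx.left_inv, hx'.left_inv]
    rw [hφ0.change e e' x hx hx']; ring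
  have htwo : ∀ {f : Cm n → ℝ} {z}, ContDiffAt ℝ ∞ f z → ContDiffAt ℝ 2 f z :=
    fun h => h.of_le (by exact WithTop.coe_le_coe.2 le_top)
  have hcH : ∀ e x, At e x → cHess (fun z => φ0 e z + u (e.symm z)) (e x) +
      ((a + ε : ℝ) : ℂ) • w e (e x) = addH χ u e (e x) := by
    intro e x hx
    rw [cHess_add (htwo (hφ0.smooth e x hx)) (htwo (hu e x hx))]
    simp only [addH, hχdef]
    abel
  refine ⟨fun e z => φ0 e z + u (e.symm z), hcan, fun e x hx => ?_, fun e x hx => ?_⟩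
  · rw [hcH e x hx]; exact hupos e x hx
  · -- log det g = φ
    have h1 : (fun z => Real.log (cHess (fun z => φ0 e z + u (e.symm z)) z +
        ((a + ε : ℝ) : ℂ) • w e z).det.re) =ᶠ[𝓝 (e x)] fun z => φ0 e z + u (e.symm z) := by
      filter_upwards [hx.nhds_target] with z hz
      have hz' := At.of_target hx.1 hz
      have h2 := hcH e _ hz'
      have h3 := heq e _ hz'
      have h4 := ricPot_eq hχ.toIsHermitian hφ0 hz'
      rw [e.right_inv hz] at h2 h3 h4
      rw [h2]
      rw [h4] at h3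
      linarith
    rw [cHess_congr h1]
    have h5 : -cHess (fun z => φ0 e z + u (e.symm z)) (e x) +
        (cHess (fun z => φ0 e z + u (e.symm z)) (e x) + ((a + ε : ℝ) : ℂ) • w e (e x)) =
        ((a + ε : ℝ) : ℂ) • w e (e x) := by abel
    rw [h5]
    exact posSemidef_ofReal_smul (hw.posDef e x hx).posSemidef (by linarith)

end

end Vale.Agent.P272.K
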