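import Vale.Agent.P272.K.Inv.Consts
import Vale.Agent.P272.K.INT.Dens

/-! Globalisation of the weak inequality: from one chart to `X`. -/

open scoped Manifold ContDiff ComplexOrder Topology
open Complex Set Filter MeasureTheory

set_option linter.all false

noncomputable section

namespace Vale.Agent.P272.K

open INT (IsDensity intX part Part)

variable {n : ℕ}

/-- output of the block P1 (one chart weak form of the integral Chern-Lu inequality) -/
def WeakForm (n : ℕ) : Prop :=
  ∀ (U : Set (Cm n)) (g h : Cm n → Matrix (Fin n) (Fin n) ℂ) (ψ : Cm n → ℝ) (k : ℝ),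
    IsOpen U →
    (∀ z ∈ U, ∀ i j, ContDiffAt ℝ ∞ (fun y => g y i j) z) →
    (∀ z ∈ U, ∀ i j, ContDiffAt ℝ ∞ (fun y => h y i j) z) →
    (∀ z ∈ U, (g z).PosDef) → (∀ z ∈ U, (h z).PosDef) →
    (∀ z ∈ U, ∀ i j l, dz l (fun y => g y i j) z = dz i (fun y => g y l j) z) →
    (∀ z ∈ U, (-cHess (fun y => Real.log (g y).det.re) z + g z).PosSemidef) →
    ContDiff ℝ ∞ ψ → HasCompactSupport ψ → tsupport ψ ⊆ U → (∀ z, 0 ≤ ψ z) → 0 ≤ k →
    (∀ z ∈ tsupport ψ, ∀ ξ : Cm n, (quart (curv h z) ξ).re ≤ -k * (quad (h z) ξ).re ^ 2) →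
    ∫ z in U, ψ z * ((k * ((g z)⁻¹ * h z).trace.re ^ 2 - 2 * ((g z)⁻¹ * h z).trace.re) *
        (g z).det.re)
      ≤ ∫ z in U, (((g z)⁻¹ * h z).trace.re * ((g z)⁻¹ * cHess ψ z).trace.re +
          ((g z)⁻¹ * h z * ((g z)⁻¹ * cHess ψ z)).trace.re) * (g z).det.re

lemma cHess_const (c : ℝ) (z : Cm n) : cHess (fun _ : Cm n => c) z = 0 := by
  ext i j
  rw [cHess_apply]
  have : (dzb j fun y : Cm n => ((c : ℝ) : ℂ)) = fun _ => 0 := by
    funext y; exact dzb_const _
  rw [this, dz_const]; rfl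

lemma cHess_sum {ι : Type*} (s : Finset ι) {f : ι → Cm n → ℝ} {z : Cm n}
    (hf : ∀ a ∈ s, ContDiffAt ℝ 2 (f a) z) :
    cHess (fun y => ∑ a ∈ s, f a y) z = ∑ a ∈ s, cHess (f a) z := by
  classical
  induction s using Finset.induction_on with
  | empty => simpa using cHess_const (n := n) 0 z
  | insert a s ha ih =>
    simp only [Finset.sum_insert ha]
    rw [cHess_add (hf a (Finset.mem_insert_self a s))
      (ContDiffAt.sum fun b hb => hf b (Finset.mem_insert_of_mem hb)),
      ih fun b hb => hf b (Finset.mem_insert_of_mem hb)]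

/-- the complex Hessian is closed -/
lemma cHess_closed {f : Cm n → ℝ} {z : Cm n} (hf : ContDiffAt ℝ ∞ f z) (i j k : Fin n) :
    dz k (fun y => cHess f y i j) z = dz i (fun y => cHess f y k j) z := by
  have hinf : (∞ : WithTop ℕ∞) + 1 ≤ ∞ := le_of_eq rfl
  have h1 : ContDiffAt ℝ 2 (dzb j fun y => (f y : ℂ)) z :=
    (contDiffAt_dzb (m := ∞) (ofReal_contDiffAt hf) hinf).of_le (by exact WithTop.coe_le_coe.2 le_top)
  exact dz_dz_comm h1

section
variable {X : Type*} [TopologicalSpace X]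

open Classical in
/-- a function on `X` in the chart `e`, extended by zero -/
def cutZ (e : Chart n X) (ρ : X → ℝ) (z : Cm n) : ℝ := if z ∈ e.target then ρ (e.symm z) else 0

lemma cutZ_of_mem {e : Chart n X} {ρ : X → ℝ} {z : Cm n} (hz : z ∈ e.target) :
    cutZ e ρ z = ρ (e.symm z) := by simp [cutZ, hz]

lemma cutZ_eventuallyEq {e : Chart n X} {ρ : X → ℝ} {z : Cm n} (hz : z ∈ e.target) :
    cutZ e ρ =ᶠ[𝓝 z] fun y => ρ (e.symm y) := by
  filter_upwards [e.open_target.mem_nhds hz] with y hy using cutZ_of_mem hy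

lemma cutZ_nonneg {e : Chart n X} {ρ : X → ℝ} (hρ : ∀ x, 0 ≤ ρ x) (z : Cm n) :
    0 ≤ cutZ e ρ z := by
  unfold cutZ; split_ifs
  · exact hρ _
  · exact le_rfl

lemma support_cutZ {e : Chart n X} {ρ : X → ℝ} :
    Function.support (cutZ e ρ) ⊆ e '' (tsupport ρ) ∩ e.target := by
  intro z hz
  rw [Function.mem_support] at hz
  by_cases h : z ∈ e.target
  · rw [cutZ_of_mem h] at hz
    exact ⟨⟨e.symm z, subset_tsupport _ hz, e.right_inv h⟩, h⟩
  · exact (hz (by simp [cutZ, h])).elim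

variable [CompactSpace X]

lemma isCompact_image_tsupport {e : Chart n X} {ρ : X → ℝ} (hs : tsupport ρ ⊆ e.source) :
    IsCompact (e '' tsupport ρ) :=
  (isClosed_tsupport ρ).isCompact.image_of_continuousOn (e.continuousOn.mono hs)

lemma tsupport_cutZ {e : Chart n X} {ρ : X → ℝ} (hs : tsupport ρ ⊆ e.source) :
    tsupport (cutZ e ρ) ⊆ e '' tsupport ρ :=
  closure_minimal (support_cutZ.trans inter_subset_left) (isCompact_image_tsupport hs).isClosed

lemma image_tsupport_subset {e : Chart n X} {ρ : X → ℝ} (hs : tsupport ρ ⊆ e.source) :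
    e '' tsupport ρ ⊆ e.target := by
  rintro _ ⟨x, hx, rfl⟩; exact e.map_source (hs hx)

lemma hasCompactSupport_cutZ {e : Chart n X} {ρ : X → ℝ} (hs : tsupport ρ ⊆ e.source) :
    HasCompactSupport (cutZ e ρ) :=
  (isCompact_image_tsupport hs).of_isClosed_subset (isClosed_tsupport _) (tsupport_cutZ hs)

lemma contDiff_cutZ [ChartedSpace (Cm n) X] {e : Chart n X} (he : e ∈ atlas (Cm n) X) {ρ : X → ℝ}
    (hρ : SmoothFn (n := n) ρ) (hs : tsupport ρ ⊆ e.source) : ContDiff ℝ ∞ (cutZ e ρ) := by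
  rw [contDiff_iff_contDiffAt]
  intro z
  by_cases h : z ∈ e.target
  · have h1 := hρ e (e.symm z) (At.of_target he h)
    rw [e.right_inv h] at h1
    exact h1.congr_of_eventuallyEq (cutZ_eventuallyEq h)
  · have h1 : z ∉ e '' tsupport ρ := fun h' => h (image_tsupport_subset hs h')
    have h2 : cutZ e ρ =ᶠ[𝓝 z] fun _ => 0 := by
      filter_upwards [(isCompact_image_tsupport hs).isClosed.isOpen_compl.mem_nhds h1] with y hy
      by_contra h3
      exact hy (support_cutZ h3).1
    exact contDiffAt_const.congr_of_eventuallyEq h2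

end

section
variable {X : Type*} [TopologicalSpace X] [ChartedSpace (Cm n) X]

/-- the bilinear pairing `(tr_g h) Δ_g u + <h, i∂∂̄u>_g` times `det g` -/
def Qd (g h : Chart n X → Cm n → Matrix (Fin n) (Fin n) ℂ) (u : X → ℝ) (e : Chart n X)
    (z : Cm n) : ℝ :=
  (((g e z)⁻¹ * h e z).trace.re * ((g e z)⁻¹ * cHess (fun y => u (e.symm y)) z).trace.re +
    ((g e z)⁻¹ * h e z * ((g e z)⁻¹ * cHess (fun y => u (e.symm y)) z)).trace.re) *
      (g e z).det.re

lemma contDiffAt_trace_mul {m : WithTop ℕ∞} {A B : Cm n → Matrix (Fin n) (Fin n) ℂ} {z : Cm n}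
    (hA : ∀ i j, ContDiffAt ℝ m (fun y => A y i j) z)
    (hB : ∀ i j, ContDiffAt ℝ m (fun y => B y i j) z) :
    ContDiffAt ℝ m (fun y => (A y * B y).trace) z := by
  simp only [Matrix.trace, Matrix.diag_apply, Matrix.mul_apply]
  exact ContDiffAt.sum fun i _ => ContDiffAt.sum fun j _ => (hA i j).mul (hB j i)

lemma contDiffAt_mul_entry {m : WithTop ℕ∞} {A B : Cm n → Matrix (Fin n) (Fin n) ℂ} {z : Cm n}
    (hA : ∀ i j, ContDiffAt ℝ m (fun y => A y i j) z)
    (hB : ∀ i j, ContDiffAt ℝ m (fun y => B y i j) z) (i j : Fin n) :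
    ContDiffAt ℝ m (fun y => (A y * B y) i j) z := by
  simp only [Matrix.mul_apply]
  exact ContDiffAt.sum fun l _ => (hA i l).mul (hB l j)

lemma contDiffAt_re {m : WithTop ℕ∞} {f : Cm n → ℂ} {z : Cm n} (hf : ContDiffAt ℝ m f z) :
    ContDiffAt ℝ m (fun y => (f y).re) z :=
  (Complex.reCLM.contDiff.contDiffAt).comp z hf

lemma IsHermitian.det_ne_zero {h : Chart n X → Cm n → Matrix (Fin n) (Fin n) ℂ}
    (hh : IsHermitian h) {e : Chart n X} {x : X} (hx : At e x) : (h e (e x)).det ≠ 0 :=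
  (hh.posDef e x hx).det_pos.ne'

lemma SmoothFn.chess {u : X → ℝ} (hu : SmoothFn (n := n) u) {e : Chart n X} {x : X} (hx : At e x)
    (i j : Fin n) :
    ContDiffAt ℝ ∞ (fun y => cHess (fun y => u (e.symm y)) y i j) (e x) :=
  contDiffAt_cHess (hu e x hx) (le_of_eq rfl) i j

lemma SmoothFn.isForm [IsManifold 𝓘(ℂ, Cm n) ω X] {u : X → ℝ} (hu : SmoothFn (n := n) u) :
    IsForm fun (e : Chart n X) z => cHess (fun y => u (e.symm y)) z :=
  isForm_cHess fun e x hx => (hu e x hx).of_le (by exact WithTop.coe_le_coe.2 le_top)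

variable [IsManifold 𝓘(ℂ, Cm n) ω X]

lemma isDensity_Qd {g h : Chart n X → Cm n → Matrix (Fin n) (Fin n) ℂ} (hg : IsHermitian g)
    (hh : IsHermitian h) {u : X → ℝ} (hu : SmoothFn (n := n) u) : IsDensity (Qd g h u) where
  cont e x hx := by
    have hgi : ∀ i j, ContDiffAt ℝ ∞ (fun y => (g e y)⁻¹ i j) (e x) :=
      fun i j => contDiffAt_inv (hg.smooth e x hx) (hg.det_ne_zero hx) i j
    have h1 := contDiffAt_trace_mul hgi (hh.smooth e x hx)
    have h2 := contDiffAt_trace_mul hgi (fun i j => hu.chess hx i j)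
    have h3 := contDiffAt_trace_mul (contDiffAt_mul_entry hgi (hh.smooth e x hx))
      (contDiffAt_mul_entry hgi (fun i j => hu.chess hx i j))
    have h4 := contDiffAt_det (hg.smooth e x hx)
    exact ((((contDiffAt_re h1).mul (contDiffAt_re h2)).add (contDiffAt_re h3)).mul
      (contDiffAt_re h4)).continuousAt
  change e e' x hx hx' := by
    unfold Qd
    have h1 := trace_inv hg.isForm hh.isForm hx hx'
    have h2 := trace_inv hg.isForm hu.isForm hx hx'
    have h3 := trace_inv2 hg.isForm hh.isForm hu.isForm hx hx'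
    rw [h1, h2, h3, det_form_re hg.isForm hx hx']
    ring

/-- the density `F(tr_g h) det g` -/
lemma isDensity_trace {g h : Chart n X → Cm n → Matrix (Fin n) (Fin n) ℂ} (hg : IsHermitian g)
    (hh : IsHermitian h) {F : ℝ → ℝ} (hF : Continuous F) :
    IsDensity fun e z => F (((g e z)⁻¹ * h e z).trace.re) * (g e z).det.re where
  cont e x hx := by
    have hgi : ∀ i j, ContDiffAt ℝ ∞ (fun y => (g e y)⁻¹ i j) (e x) :=
      fun i j => contDiffAt_inv (hg.smooth e x hx) (hg.det_ne_zero hx) i j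
    have h1 := contDiffAt_trace_mul hgi (hh.smooth e x hx)
    have h4 := contDiffAt_det (hg.smooth e x hx)
    exact (hF.continuousAt.comp (contDiffAt_re h1).continuousAt).mul (contDiffAt_re h4).continuousAt
  change e e' x hx hx' := by
    rw [trace_inv hg.isForm hh.isForm hx hx', det_form_re hg.isForm hx hx']
    ring

/-- **global integral inequality** -/
theorem intX_ineq [T2Space X] [CompactSpace X] (hWF : WeakForm n)
    {g h : Chart n X → Cm n → Matrix (Fin n) (Fin n) ℂ} (hg : IsKahler g) (hh : IsHermitian h)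
    (hric : ∀ e x, At e x →
      (-cHess (fun z => Real.log (g e z).det.re) (e x) + g e (e x)).PosSemidef)
    {k : ℝ} (hk : 0 ≤ k)
    (hHSC : ∀ i, ∀ z ∈ (part n X).e i '' tsupport ((part n X).ρ i), ∀ ξ : Cm n,
      (quart (curv (h ((part n X).e i)) z) ξ).re ≤ -k * (quad (h ((part n X).e i) z) ξ).re ^ 2) :
    intX (fun e z => (k * ((g e z)⁻¹ * h e z).trace.re ^ 2 - 2 * ((g e z)⁻¹ * h e z).trace.re) *
        (g e z).det.re) ≤ 0 := by
  set P := part n X with hP
  have hgH : IsHermitian g := hg.toIsHermitian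
  -- the right hand side
  have hsum : intX (fun e z => ∑ i : Fin P.N, Qd g h (P.ρ i) e z) = 0 := by
    rw [← INT.intX_zero (n := n) (X := X)]
    refine INT.intX_congr fun e x hx => ?_
    have h0 : ∑ i : Fin P.N, cHess (fun y => P.ρ i (e.symm y)) (e x) = 0 := by
      rw [← cHess_sum]
      · have : (fun y => ∑ i : Fin P.N, P.ρ i (e.symm y)) = fun _ => 1 := by
          funext y; exact P.sum _
        rw [this, cHess_const]
      · intro i _
        exact (P.smooth i e x hx).of_le (by exact WithTop.coe_le_coe.2 le_top)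
    unfold Qd
    rw [← Finset.sum_mul, Finset.sum_add_distrib, ← Finset.mul_sum]
    have h1 : ∑ i : Fin P.N, ((g e (e x))⁻¹ * cHess (fun y => P.ρ i (e.symm y)) (e x)).trace.re
        = 0 := by
      rw [← Complex.re_sum, ← Matrix.trace_sum, ← Matrix.mul_sum, h0]; simp
    have h2 : ∑ i : Fin P.N, ((g e (e x))⁻¹ * h e (e x) *
        ((g e (e x))⁻¹ * cHess (fun y => P.ρ i (e.symm y)) (e x))).trace.re = 0 := by
      rw [← Complex.re_sum, ← Matrix.trace_sum, ← Matrix.mul_sum, ← Matrix.mul_sum, h0]; simp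
    rw [h1, h2]; ring
  have hi : ∀ i : Fin P.N, intX (Qd g h (P.ρ i)) = ∫ z in (P.e i).target, Qd g h (P.ρ i) (P.e i) z := by
    intro i
    refine INT.intX_of_support (isDensity_Qd hgH hh (P.smooth i)) (P.mem i)
      (isClosed_tsupport (P.ρ i)) (P.supp i) ?_
    intro e' x hx hxK
    have h1 : (fun y => P.ρ i (e'.symm y)) =ᶠ[𝓝 (e' x)] fun _ => 0 := by
      have h2 : ∀ᶠ y in 𝓝 x, P.ρ i y = 0 := by
        filter_upwards [(isClosed_tsupport (P.ρ i)).isOpen_compl.mem_nhds hxK] with y hy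
        exact image_eq_zero_of_notMem_tsupport hy
      have h3 : Tendsto e'.symm (𝓝 (e' x)) (𝓝 x) := by
        have := e'.continuousAt_symm (e'.map_source hx.2)
        rw [ContinuousAt, e'.left_inv hx.2] at this
        exact this
      exact h3.eventually h2
    unfold Qd
    rw [cHess_congr h1, cHess_const]
    simp
  have hchart : ∀ i : Fin P.N,
      ∫ z in (P.e i).target, P.ρ i ((P.e i).symm z) *
        ((k * ((g (P.e i) z)⁻¹ * h (P.e i) z).trace.re ^ 2 -
          2 * ((g (P.e i) z)⁻¹ * h (P.e i) z).trace.re) * (g (P.e i) z).det.re)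
      ≤ ∫ z in (P.e i).target, Qd g h (P.ρ i) (P.e i) z := by
    intro i
    have hmem := P.mem i
    have hsm : ∀ z ∈ (P.e i).target, At (P.e i) ((P.e i).symm z) := fun z hz => At.of_target hmem hz
    have key := hWF (P.e i).target (g (P.e i)) (h (P.e i)) (cutZ (P.e i) (P.ρ i)) k
      (P.e i).open_target (fun z hz a b => hgH.smooth_target hmem hz a b)
      (fun z hz a b => hh.smooth_target hmem hz a b)
      (fun z hz => hgH.posDef_target hmem hz) (fun z hz => hh.posDef_target hmem hz)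
      (fun z hz a b l => by
        have := hg.closed (P.e i) _ (hsm z hz) a b l
        rwa [(P.e i).right_inv hz] at this)
      (fun z hz => by
        have := hric (P.e i) _ (hsm z hz)
        rwa [(P.e i).right_inv hz] at this)
      (contDiff_cutZ hmem (P.smooth i) (P.supp i)) (hasCompactSupport_cutZ (P.supp i))
      ((tsupport_cutZ (P.supp i)).trans (image_tsupport_subset (P.supp i)))
      (cutZ_nonneg (P.nonneg i)) hk
      (fun z hz ξ => hHSC i z (tsupport_cutZ (P.supp i) hz) ξ)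
    have e1 : ∫ z in (P.e i).target, P.ρ i ((P.e i).symm z) *
        ((k * ((g (P.e i) z)⁻¹ * h (P.e i) z).trace.re ^ 2 -
          2 * ((g (P.e i) z)⁻¹ * h (P.e i) z).trace.re) * (g (P.e i) z).det.re) =
        ∫ z in (P.e i).target, cutZ (P.e i) (P.ρ i) z *
        ((k * ((g (P.e i) z)⁻¹ * h (P.e i) z).trace.re ^ 2 -
          2 * ((g (P.e i) z)⁻¹ * h (P.e i) z).trace.re) * (g (P.e i) z).det.re) := by
      refine setIntegral_congr_fun (P.e i).open_target.measurableSet fun z hz => ?_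
      simp only [cutZ_of_mem hz]
    have e2 : ∫ z in (P.e i).target, Qd g h (P.ρ i) (P.e i) z =
        ∫ z in (P.e i).target, (((g (P.e i) z)⁻¹ * h (P.e i) z).trace.re *
          ((g (P.e i) z)⁻¹ * cHess (cutZ (P.e i) (P.ρ i)) z).trace.re +
          ((g (P.e i) z)⁻¹ * h (P.e i) z *
            ((g (P.e i) z)⁻¹ * cHess (cutZ (P.e i) (P.ρ i)) z)).trace.re) *
          (g (P.e i) z).det.re := by
      refine setIntegral_congr_fun (P.e i).open_target.measurableSet fun z hz => ?_
      simp only [Qd, cHess_congr (cutZ_eventuallyEq (ρ := P.ρ i) hz)]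
    rw [e1, e2]
    exact key
  calc intX (fun e z => (k * ((g e z)⁻¹ * h e z).trace.re ^ 2 -
        2 * ((g e z)⁻¹ * h e z).trace.re) * (g e z).det.re)
      ≤ ∑ i : Fin P.N, ∫ z in (P.e i).target, Qd g h (P.ρ i) (P.e i) z :=
        Finset.sum_le_sum fun i _ => hchart i
    _ = ∑ i : Fin P.N, intX (Qd g h (P.ρ i)) := Finset.sum_congr rfl fun i _ => (hi i).symm
    _ = intX (fun e z => ∑ i : Fin P.N, Qd g h (P.ρ i) e z) :=
        (INT.intX_sum Finset.univ fun i _ => isDensity_Qd hgH hh (P.smooth i)).symm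
    _ = 0 := hsum

end

end Vale.Agent.P272.K
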