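import Vale.Agent.P272.K.Asm.Twisted

/-! The assembly of the main statement from the three blocks. -/

open scoped Manifold ContDiff ComplexOrder Topology

set_option linter.all false

noncomputable section

namespace Vale.Agent.P272.K

/-- phase 1 with the existence of the metrics as hypothesis -/
def TwistedStatement : Prop :=
  ∀ (n : ℕ) (X : Type) [TopologicalSpace X] [T2Space X] [CompactSpace X] [Nonempty X]
    [ChartedSpace (Cm n) X] [IsManifold 𝓘(ℂ, Cm n) ω X]
    (w h : Chart n X → Cm n → Matrix (Fin n) (Fin n) ℂ) (_ : IsKahler w) (_ : IsHermitian h)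
    (_ : NegHSC h) (a : ℝ) (_ : TwistedKE w a) (φ : Chart n X → Cm n → ℝ)
    (_ : IsCanonicalMetric φ),
    ∃ I : ℝ, 0 < I ∧ IsIntegral (fun e z => (cHess (φ e) z + (a : ℂ) • w e z).det.re) I

theorem twistedStatement (hWF : ∀ n, WeakForm n)
    (hPI : ∀ (n : ℕ) (X : Type) [TopologicalSpace X] [T2Space X] [CompactSpace X] [Nonempty X]
      [ChartedSpace (Cm n) X] [IsManifold 𝓘(ℂ, Cm n) ω X], PosOfIneq n X) : TwistedStatement := by
  intro n X _ _ _ _ _ _ w h hw hh hneg a hke φ hφ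
  exact phase1 (hWF n) (hPI n X) hw hh hneg hke hφ

theorem mainStatement (hWF : ∀ n, WeakForm n)
    (hPI : ∀ (n : ℕ) (X : Type) [TopologicalSpace X] [T2Space X] [CompactSpace X] [Nonempty X]
      [ChartedSpace (Cm n) X] [IsManifold 𝓘(ℂ, Cm n) ω X], PosOfIneq n X)
    (hAY : ∀ (n : ℕ) (X : Type) [TopologicalSpace X] [T2Space X] [CompactSpace X] [Nonempty X]
      [ChartedSpace (Cm n) X] [IsManifold 𝓘(ℂ, Cm n) ω X], 1 ≤ n → AubinYau n X) :
    MainStatement := by
  intro n hn X _ _ _ _ _ _ w h hw hh hneg a ha hnef φ hφ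
  exact phase1 (hWF n) (hPI n X) hw hh hneg (twistedKE_of_nef (hAY n X hn) hw ha hnef) hφ

end Vale.Agent.P272.K
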