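import Vale.Agent.P272.K.Asm.Main
import Vale.Agent.P272.K.P1.WeakForm
import Vale.Agent.P272.K.INT.Gronwall

/-! Phase 1 without hypotheses on the blocks. -/

open scoped Manifold ContDiff ComplexOrder Topology

set_option linter.all false

noncomputable section

namespace Vale.Agent.P272.K

theorem twisted : TwistedStatement :=
  twistedStatement P1.weakForm (fun n X _ _ _ _ _ _ w hw a φ hφ C H => INT.pos_of_ineq hw a hφ C H)

theorem main_of_aubinYau
    (hAY : ∀ (n : ℕ) (X : Type) [TopologicalSpace X] [T2Space X] [CompactSpace X] [Nonempty X]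
      [ChartedSpace (Cm n) X] [IsManifold 𝓘(ℂ, Cm n) ω X], 1 ≤ n → AubinYau n X) :
    MainStatement :=
  mainStatement P1.weakForm
    (fun n X _ _ _ _ _ _ w hw a φ hφ C H => INT.pos_of_ineq hw a hφ C H) hAY

end Vale.Agent.P272.K
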